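import Vale.Agent.Lib.P219.Mo.Moll

/-! # P219 Mollification: norm of the mollified field -/

namespace Vale.Agent.Lib.P219

open MeasureTheory Set Filter Topology
open scoped ENNReal ContDiff

variable {n : ℕ}

private theorem normF_dens_pos (H : HData n) (x : Ev n) : 0 < H.dens x := by
  have h1 : ((H.Li x : Ev n →ₗ[ℝ] Ev n)).comp ((H.L x : Ev n →ₗ[ℝ] Ev n)) = LinearMap.id := by
    ext1 v
    exact H.Li_L x v
  have h2 : LinearMap.det (H.Li x : Ev n →ₗ[ℝ] Ev n) * LinearMap.det (H.L x : Ev n →ₗ[ℝ] Ev n)
      = 1 := by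
    rw [← LinearMap.det_comp, h1, LinearMap.det_id]
  have h3 : (H.Li x).det ≠ 0 := by
    intro h
    have h4 : LinearMap.det (H.Li x : Ev n →ₗ[ℝ] Ev n) = 0 := h
    rw [h4, zero_mul] at h2
    exact zero_ne_one h2
  exact abs_pos.mpr h3

private theorem normF_dens_cont (H : HData n) : Continuous H.dens := by
  unfold HData.dens
  exact (ContinuousLinearMap.continuous_det.comp H.Li_cont).abs

/-- a continuous function of two variables, negative on the diagonal, is negative near the
diagonal of a compact set -/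
private theorem normF_tube {X : Type*} [MetricSpace X] {B : Set X} (hB : IsCompact B)
    {F : X → X → ℝ} (hF : Continuous fun p : X × X => F p.1 p.2) (hdiag : ∀ x, F x x < 0) :
    ∃ r > 0, ∀ x ∈ B, ∀ y ∈ B, dist x y ≤ r → F x y < 0 := by
  have hK : IsCompact ((B ×ˢ B) ∩ {p : X × X | 0 ≤ F p.1 p.2}) :=
    (hB.prod hB).inter_right (isClosed_le continuous_const hF)
  rcases ((B ×ˢ B) ∩ {p : X × X | 0 ≤ F p.1 p.2}).eq_empty_or_nonempty with he | hne
  · refine ⟨1, one_pos, fun x hx y hy _ => ?_⟩
    by_contra hcon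
    have hmem : (x, y) ∈ (B ×ˢ B) ∩ {p : X × X | 0 ≤ F p.1 p.2} :=
      ⟨mk_mem_prod hx hy, not_lt.mp hcon⟩
    rw [he] at hmem
    exact hmem
  · obtain ⟨p0, hp0, hmin⟩ := hK.exists_isMinOn hne
      (continuous_dist (α := X)).continuousOn
    have hpos : 0 < dist p0.1 p0.2 := by
      rw [dist_pos]
      intro h
      have h1 : F p0.1 p0.2 < 0 := by
        rw [← h]; exact hdiag _
      exact absurd hp0.2 (not_le.mpr h1)
    refine ⟨dist p0.1 p0.2 / 2, by positivity, fun x hx y hy hxy => ?_⟩
    by_contra hcon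
    have hmem : (x, y) ∈ (B ×ˢ B) ∩ {p : X × X | 0 ≤ F p.1 p.2} :=
      ⟨mk_mem_prod hx hy, not_lt.mp hcon⟩
    have h3 : dist p0.1 p0.2 ≤ dist x y := hmin hmem
    linarith

private theorem normF_comp_cont (H : HData n) :
    Continuous (fun p : Ev n × Ev n => ‖(H.Li p.1).comp (H.L p.2)‖) :=
  ((H.Li_cont.comp continuous_fst).clm_comp (H.L_cont.comp continuous_snd)).norm

private theorem normF_comp_self (H : HData n) (x : Ev n) : ‖(H.Li x).comp (H.L x)‖ ≤ 1 := by
  have h1 : (H.Li x).comp (H.L x) = ContinuousLinearMap.id ℝ (Ev n) := by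
    ext1 v
    exact H.Li_L x v
  rw [h1]
  exact ContinuousLinearMap.norm_id_le

/-- uniform comparison of frames on a compact ball -/
private theorem normF_unif (H : HData n) (R : ℝ) {ε : ℝ} (hε : 0 < ε) :
    ∃ r > 0, ∀ x ∈ Metric.closedBall (0 : Ev n) R, ∀ y ∈ Metric.closedBall (0 : Ev n) R,
      dist x y ≤ r → ‖(H.Li x).comp (H.L y)‖ * H.dens y ≤ (1 + ε) * H.dens x := by
  obtain ⟨r, hr, h⟩ := normF_tube (isCompact_closedBall (0 : Ev n) R)
    (F := fun x y => ‖(H.Li x).comp (H.L y)‖ * H.dens y - (1 + ε) * H.dens x)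
    (((normF_comp_cont H).mul ((normF_dens_cont H).comp continuous_snd)).sub
      (continuous_const.mul ((normF_dens_cont H).comp continuous_fst)))
    (fun x => by
      have h3 := normF_dens_pos H x
      have h4 : ‖(H.Li x).comp (H.L x)‖ * H.dens x ≤ 1 * H.dens x :=
        mul_le_mul_of_nonneg_right (normF_comp_self H x) h3.le
      have h5 : 0 < ε * H.dens x := mul_pos hε h3
      linarith)
  exact ⟨r, hr, fun x hx y hy hxy => by
    have h6 := h x hx y hy hxy
    linarith⟩

theorem mollF_norm (H : HData n) (R : ℝ) {ε : ℝ} (hε : 0 < ε) :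
    ∃ r > 0, ∀ φ : ContDiffBump (0 : Ev n), φ.rOut ≤ r → ∀ Y : Ev n → Ev n, ContDiff ℝ 1 Y →
      tsupport Y ⊆ Metric.closedBall 0 R → (∀ x, ‖H.Li x (Y x)‖ ≤ H.dens x) →
      ∀ x, ‖H.Li x (mollF φ Y x)‖ ≤ (1 + ε) * H.dens x := by
  obtain ⟨r, hr, hcmp⟩ := normF_unif H (R + 1) hε
  refine ⟨min r 1, lt_min hr one_pos, fun φ hφ Y hY hYs hYn x => ?_⟩
  have hφr : φ.rOut ≤ r := hφ.trans (min_le_left _ _)
  have hφ1 : φ.rOut ≤ 1 := hφ.trans (min_le_right _ _)
  have hC : 0 ≤ (1 + ε) * H.dens x := by
    have := normF_dens_pos H x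
    positivity
  have hcont : Continuous (fun y => φ.normed volume (y - x)) :=
    φ.continuous_normed.comp (continuous_id.sub continuous_const)
  have hYc : HasCompactSupport Y :=
    HasCompactSupport.intro' (isCompact_closedBall (0 : Ev n) R) Metric.isClosed_closedBall
      (fun y hy => image_eq_zero_of_notMem_tsupport (fun h => hy (hYs h)))
  have hint : Integrable (fun y => φ.normed volume (y - x) • Y y) :=
    (hcont.smul hY.continuous).integrable_of_hasCompactSupport hYc.smul_left
  have hint1 : Integrable (fun y => φ.normed volume (y - x) * ((1 + ε) * H.dens x)) := by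
    refine Integrable.mul_const ?_ _
    exact (φ.integrable_normed).comp_sub_right x
  have hone : ∫ y, φ.normed volume (y - x) = 1 := by
    rw [integral_sub_right_eq_self (fun y => φ.normed volume y) x]
    exact φ.integral_normed
  unfold mollF
  rw [← ContinuousLinearMap.integral_comp_comm _ hint]
  calc ‖∫ y, H.Li x (φ.normed volume (y - x) • Y y)‖
      ≤ ∫ y, φ.normed volume (y - x) * ((1 + ε) * H.dens x) := by
        refine norm_integral_le_of_norm_le hint1 (Eventually.of_forall fun y => ?_)
        have hn0 : 0 ≤ φ.normed volume (y - x) := φ.nonneg_normed _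
        simp only [map_smul, norm_smul, Real.norm_eq_abs, abs_of_nonneg hn0]
        by_cases hz : φ.normed volume (y - x) = 0
        · simp [hz]
        by_cases hY0 : Y y = 0
        · rw [hY0, map_zero, norm_zero, mul_zero]
          exact mul_nonneg hn0 hC
        refine mul_le_mul_of_nonneg_left ?_ hn0
        have hy : y ∈ Metric.closedBall (0 : Ev n) R := hYs (subset_tsupport _ hY0)
        have hyx : y - x ∈ Metric.ball (0 : Ev n) φ.rOut := by
          rw [← φ.support_normed_eq (μ := volume)]
          exact hz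
        have hd : dist y x < φ.rOut := by
          rw [mem_ball_zero_iff] at hyx
          rwa [dist_eq_norm]
        have hyB : y ∈ Metric.closedBall (0 : Ev n) (R + 1) :=
          Metric.closedBall_subset_closedBall (by linarith) hy
        have hxB : x ∈ Metric.closedBall (0 : Ev n) (R + 1) := by
          rw [mem_closedBall_zero_iff] at hy ⊢
          have h1 : ‖x‖ ≤ ‖y‖ + dist y x := by
            have h2 := norm_sub_norm_le x y
            rw [dist_comm, dist_eq_norm]
            linarith
          linarith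
        have hc := hcmp x hxB y hyB (by rw [dist_comm]; linarith)
        have hLL : H.Li x (Y y) = ((H.Li x).comp (H.L y)) (H.Li y (Y y)) := by
          rw [ContinuousLinearMap.comp_apply, H.L_Li]
        rw [hLL]
        calc ‖((H.Li x).comp (H.L y)) (H.Li y (Y y))‖
            ≤ ‖(H.Li x).comp (H.L y)‖ * ‖H.Li y (Y y)‖ := ContinuousLinearMap.le_opNorm _ _
          _ ≤ ‖(H.Li x).comp (H.L y)‖ * H.dens y :=
              mul_le_mul_of_nonneg_left (hYn y) (norm_nonneg _)
          _ ≤ (1 + ε) * H.dens x := hc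
    _ = (1 + ε) * H.dens x := by
        rw [integral_mul_const, hone, one_mul]

end Vale.Agent.Lib.P219
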