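import Vale.Agent.Lib.P219.Mo.Field
import Vale.Agent.Lib.P219.Mo.NormF

/-! # P219 Mollification: approximation of sets of finite perimeter -/

namespace Vale.Agent.Lib.P219

open MeasureTheory Set Filter Topology
open scoped ENNReal ContDiff

variable {n : ℕ} {g : Ev n → (Ev n →L[ℝ] Ev n →L[ℝ] ℝ)}

private theorem integral_vol_aux (H : HData n) (f : Ev n → ℝ) :
    ∫ x, f x ∂H.vol = ∫ x, f x * H.dens x := by
  have hmeas : Measurable (fun x => ENNReal.ofReal (H.dens x)) :=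
    (ENNReal.continuous_ofReal.comp H.dens_cont).measurable
  unfold HData.vol
  rw [integral_withDensity_eq_integral_toReal_smul hmeas
    (Filter.Eventually.of_forall fun x => ENNReal.ofReal_lt_top)]
  refine integral_congr_ae (Filter.Eventually.of_forall fun x => ?_)
  simp only [smul_eq_mul]
  rw [ENNReal.toReal_ofReal (H.dens_pos x).le, mul_comm]

private theorem div_smul_aux (c : ℝ) {F : Ev n → Ev n} (hF : ContDiff ℝ 1 F) (x : Ev n) :
    ∑ i, fderiv ℝ (fun y => c • F y) x (EuclideanSpace.single i 1) i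
      = c * ∑ i, fderiv ℝ F x (EuclideanSpace.single i 1) i := by
  have hd : DifferentiableAt ℝ F x := (hF.differentiable (by norm_num)) x
  rw [show (fun y => c • F y) = c • F from rfl, fderiv_const_smul hd]
  rw [Finset.mul_sum]
  refine Finset.sum_congr rfl fun i _ => ?_
  simp

theorem approx (hg : IsMetric g) {H : HData n} (hH : Represents H g) {Ω : Set (Ev n)}
    (hΩ : Bornology.IsBounded Ω) (hm : MeasurableSet Ω) (hp : per g Ω ≠ ⊤) :
    ∃ K₀ : Set (Ev n), IsCompact K₀ ∧ ∀ ε > 0, ∃ u : Ev n → ℝ, ContDiff ℝ 1 u ∧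
      tsupport u ⊆ K₀ ∧ (∀ x, 0 ≤ u x) ∧ (∀ x, u x ≤ 1) ∧
      (∫ x, |u x - Ω.indicator (1 : Ev n → ℝ) x| ∂H.vol ≤ ε) ∧
      H.A u ≤ (1 + ε) * (per g Ω).toReal + ε := by
  obtain ⟨R, hR⟩ := hΩ.subset_closedBall (0 : Ev n)
  refine ⟨Metric.closedBall 0 (R + 1), isCompact_closedBall _ _, fun ε hε => ?_⟩
  obtain ⟨r, hr, hrn⟩ := mollF_norm H (R + 1) hε
  obtain ⟨φ, hφr, hφ⟩ := moll_tendsto hΩ hm H.dens_cont (fun x => (H.dens_pos x).le) hε
    (lt_min hr one_pos : 0 < min r 1)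
  have hφ1 : φ.rOut ≤ 1 := hφr.trans (min_le_right _ _)
  have hφ2 : φ.rOut ≤ r := hφr.trans (min_le_left _ _)
  have hsm := moll_contDiff φ hΩ hm
  have hsupp := moll_support φ hφ1 hR
  have hcs : HasCompactSupport (moll φ Ω) :=
    (isCompact_closedBall _ _).of_isClosed_subset (isClosed_tsupport _) hsupp
  refine ⟨moll φ Ω, hsm.of_le (by exact_mod_cast le_top), hsupp,
    fun x => (moll_mem φ hΩ hm x).1, fun x => (moll_mem φ hΩ hm x).2, ?_, ?_⟩
  · rw [integral_vol_aux]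
    exact hφ
  · obtain ⟨Y, hY1, hYs, hYn, hYA⟩ := exists_field hg hH (moll φ Ω)
      (hsm.of_le (WithTop.coe_le_coe.mpr le_top)) hcs hε
    have hYcs : HasCompactSupport Y := hcs.of_isClosed_subset (isClosed_tsupport _) hYs
    have hdual := moll_dual φ hΩ hm hY1 hYcs
    have hnorm := hrn φ hφ2 Y hY1 (hYs.trans hsupp) hYn
    obtain ⟨hF1, hF2⟩ := mollF_contDiff φ hY1 hYcs
    have h1ε : 0 < 1 + ε := by linarith
    have hle := le_per_of_field hg hH Ω (fun x => (1 + ε)⁻¹ • mollF φ Y x)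
      (hF1.const_smul _) (hF2.smul_left (f := fun _ => (1 + ε)⁻¹)) (fun x => by
        rw [map_smul, norm_smul, Real.norm_eq_abs, abs_of_pos (inv_pos.mpr h1ε)]
        rw [inv_mul_le_iff₀ h1ε]
        exact hnorm x)
    rw [ENNReal.ofReal_le_iff_le_toReal hp] at hle
    simp only [div_smul_aux (1 + ε)⁻¹ hF1] at hle
    rw [integral_const_mul, inv_mul_le_iff₀ h1ε] at hle
    rw [hdual] at hYA
    linarith

end Vale.Agent.Lib.P219
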