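import Mathlib.Algebra.Order.Archimedean.Real.Hom
import Mathlib.Analysis.Matrix.PosDef
import Vale.Agent.Lib.P219.MetricDefs
import Vale.Agent.Lib.P219.A.Vol

/-! # P219 Mollification: translation between the metric and the frame -/

namespace Vale.Agent.Lib.P219

open MeasureTheory Set Filter Topology
open scoped ENNReal ContDiff

variable {n : ℕ} {g : Ev n → (Ev n →L[ℝ] Ev n →L[ℝ] ℝ)}

private theorem gram_contDiff (hg : IsMetric g) (i j : Fin n) :
    ContDiff ℝ ∞ (fun x => gram g x i j) := by
  unfold gram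
  exact (hg.smooth.clm_apply contDiff_const).clm_apply contDiff_const

private theorem det_gram_contDiff (hg : IsMetric g) :
    ContDiff ℝ ∞ (fun x => (gram g x).det) := by
  have h : (fun x => (gram g x).det) = fun x => ∑ σ : Equiv.Perm (Fin n),
      ((Equiv.Perm.sign σ : ℤ) : ℝ) * ∏ i, gram g x (σ i) i := by
    funext x
    rw [Matrix.det_apply']
  rw [h]
  apply ContDiff.sum
  intro σ _
  apply contDiff_const.mul
  apply contDiff_prod
  intro i _
  exact gram_contDiff hg (σ i) i

private theorem gram_quad (x : Ev n) (v : Fin n → ℝ) :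
    dotProduct v ((gram g x).mulVec v) = g x (WithLp.toLp 2 v) (WithLp.toLp 2 v) := by
  have hv : (WithLp.toLp 2 v : Ev n) = ∑ i, v i • EuclideanSpace.single i (1 : ℝ) := by
    ext k
    simp [Finset.sum_apply, Pi.single_apply]
  rw [hv]
  simp only [map_sum, map_smul, FunLike.coe_sum, Finset.sum_apply,
    FunLike.coe_smul, Pi.smul_apply, smul_eq_mul, dotProduct, Matrix.mulVec, gram]
  simp_rw [Finset.mul_sum]
  rw [Finset.sum_comm]
  refine Finset.sum_congr rfl fun i _ => Finset.sum_congr rfl fun j _ => ?_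
  ring

private theorem det_gram_pos (hg : IsMetric g) (x : Ev n) : 0 < (gram g x).det := by
  have hH : (gram g x).IsHermitian := by
    ext i j
    simp only [Matrix.conjTranspose_apply, star_trivial, gram]
    exact hg.symm x _ _
  have hP : (gram g x).PosDef := by
    refine Matrix.PosDef.of_dotProduct_mulVec_pos hH fun v hv => ?_
    rw [star_trivial, gram_quad]
    apply hg.pos
    intro h0
    apply hv
    funext i
    have := congrArg (fun w : Ev n => w i) h0
    simpa using this
  exact hP.det_pos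

theorem sqdet_contDiff (hg : IsMetric g) : ContDiff ℝ ∞ (sqdet g) := by
  unfold sqdet
  exact (det_gram_contDiff hg).sqrt (fun x => (det_gram_pos hg x).ne')

theorem sqdet_pos (hg : IsMetric g) (x : Ev n) : 0 < sqdet g x :=
  Real.sqrt_pos.2 (det_gram_pos hg x)

theorem dens_eq_sqdet {H : HData n} (hH : Represents H g) (x : Ev n) : H.dens x = sqdet g x := by
  unfold HData.dens sqdet
  set b := (EuclideanSpace.basisFun (Fin n) ℝ).toBasis with hb
  set A := LinearMap.toMatrix b b (H.Li x : Ev n →ₗ[ℝ] Ev n) with hA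
  have h1 : gram g x = A.transpose * A := by
    ext i j
    rw [Matrix.mul_apply]
    unfold gram
    rw [hH x, PiLp.inner_apply]
    refine Finset.sum_congr rfl fun k _ => ?_
    have hb1 : ∀ l : Fin n, b l = EuclideanSpace.single l (1 : ℝ) := by
      intro l
      simp [hb]
    have hA1 : ∀ l : Fin n, A k l = H.Li x (EuclideanSpace.single l (1 : ℝ)) k := by
      intro l
      rw [hA, LinearMap.toMatrix_apply, hb1]
      simp [hb]
    rw [Matrix.transpose_apply, hA1, hA1]
    simp [mul_comm]
  rw [h1, Matrix.det_mul, Matrix.det_transpose, ← sq, Real.sqrt_sq_eq_abs]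
  congr 1
  rw [hA, LinearMap.det_toMatrix]

theorem vol_eq_gvol {H : HData n} (hH : Represents H g) : H.vol = gvol g := by
  unfold HData.vol gvol
  congr 1
  funext x
  rw [dens_eq_sqdet hH]

theorem sqrt_metric {H : HData n} (hH : Represents H g) (x v : Ev n) :
    Real.sqrt (g x v v) = ‖H.Li x v‖ := by
  rw [hH x, norm_eq_sqrt_real_inner]

/-- the perimeter in terms of `Y = sqdet g • X` -/
theorem le_per_of_field (hg : IsMetric g) {H : HData n} (hH : Represents H g)
    (Ω : Set (Ev n)) (Y : Ev n → Ev n) (hY : ContDiff ℝ 1 Y)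
    (hYs : HasCompactSupport Y) (hYn : ∀ x, ‖H.Li x (Y x)‖ ≤ H.dens x) :
    ENNReal.ofReal (∫ x in Ω, ∑ i, fderiv ℝ Y x (EuclideanSpace.single i 1) i) ≤ per g Ω := by
  have hsp := sqdet_pos hg
  have hsc : ContDiff ℝ 1 (fun x => (sqdet g x)⁻¹) :=
    ((sqdet_contDiff hg).of_le (by exact_mod_cast le_top)).inv (fun x => (hsp x).ne')
  set X : Ev n → Ev n := fun x => (sqdet g x)⁻¹ • Y x with hX
  have hX1 : ContDiff ℝ 1 X := hsc.smul hY
  have hX2 : HasCompactSupport X := by
    apply hYs.mono
    intro x hx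
    rw [Function.mem_support] at hx ⊢
    intro h0
    apply hx
    simp [hX, h0]
  have hX3 : ∀ x, g x (X x) (X x) ≤ 1 := by
    intro x
    have h1 : ‖H.Li x (X x)‖ ≤ 1 := by
      simp only [hX, map_smul, norm_smul, norm_inv, Real.norm_eq_abs, abs_of_pos (hsp x)]
      have h2 := hYn x
      rw [dens_eq_sqdet hH] at h2
      rw [inv_mul_le_iff₀ (hsp x), mul_one]
      exact h2
    rw [hH x, real_inner_self_eq_norm_sq]
    nlinarith [norm_nonneg (H.Li x (X x))]
  have hint : ∫ x in Ω, gdiv g X x ∂(gvol g) =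
      ∫ x in Ω, ∑ i, fderiv ℝ Y x (EuclideanSpace.single i 1) i := by
    unfold gvol
    rw [restrict_withDensity', integral_withDensity_eq_integral_toReal_smul]
    · refine integral_congr_ae (Filter.Eventually.of_forall fun x => ?_)
      simp only [ENNReal.toReal_ofReal (hsp x).le, smul_eq_mul, gdiv]
      rw [← mul_assoc, mul_inv_cancel₀ (hsp x).ne', one_mul]
      refine Finset.sum_congr rfl fun i _ => ?_
      have h3 : (fun y => sqdet g y * X y i) = fun y => Y y i := by
        funext y
        simp only [hX, PiLp.smul_apply, smul_eq_mul]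
        rw [← mul_assoc, mul_inv_cancel₀ (hsp y).ne', one_mul]
      rw [h3]
      have h4 : HasFDerivAt Y (fderiv ℝ Y x) x := (hY.differentiable (by norm_num) x).hasFDerivAt
      have h5 := ((EuclideanSpace.proj i : Ev n →L[ℝ] ℝ).hasFDerivAt).comp x h4
      have h6 : ((EuclideanSpace.proj i : Ev n →L[ℝ] ℝ) ∘ Y) = fun y => Y y i := rfl
      rw [h6] at h5
      rw [h5.fderiv]
      rfl
    · exact (ENNReal.measurable_ofReal.comp (sqdet_contDiff hg).continuous.measurable)
    · exact Filter.Eventually.of_forall fun x => ENNReal.ofReal_lt_top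
  rw [← hint]
  unfold per
  exact le_iSup₂_of_le X ⟨hX1, hX2, hX3⟩ le_rfl

end Vale.Agent.Lib.P219
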