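import Mathlib.Analysis.Calculus.LineDeriv.IntegrationByParts
import Vale.Agent.Lib.P219.Mo.Rep

/-! # P219 Mollification: almost optimal fields -/

namespace Vale.Agent.Lib.P219

open MeasureTheory Set Filter Topology
open scoped ENNReal ContDiff

variable {n : ℕ} {g : Ev n → (Ev n →L[ℝ] Ev n →L[ℝ] ℝ)}

private theorem Field_coord {Y : Ev n → Ev n} (hY : ContDiff ℝ 1 Y) (i : Fin n) (x v : Ev n) :
    fderiv ℝ (fun y => Y y i) x v = fderiv ℝ Y x v i := by
  have h1 : HasFDerivAt Y (fderiv ℝ Y x) x := (hY.differentiable (by norm_num) x).hasFDerivAt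
  have h2 : HasFDerivAt (fun y => Y y i)
      ((EuclideanSpace.proj i : Ev n →L[ℝ] ℝ).comp (fderiv ℝ Y x)) x :=
    (EuclideanSpace.proj i : Ev n →L[ℝ] ℝ).hasFDerivAt.comp x h1
  rw [h2.fderiv]
  rfl

/-- integration by parts for compactly supported fields -/
theorem ibp_div (u : Ev n → ℝ) (Y : Ev n → Ev n) (hu : ContDiff ℝ 1 u) (hY : ContDiff ℝ 1 Y)
    (hYs : HasCompactSupport Y) :
    ∫ x, u x * ∑ i, fderiv ℝ Y x (EuclideanSpace.single i 1) i = -∫ x, fderiv ℝ u x (Y x) := by
  have hYi : ∀ i, ContDiff ℝ 1 (fun y => Y y i) := fun i =>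
    (EuclideanSpace.proj i : Ev n →L[ℝ] ℝ).contDiff.comp hY
  have hYis : ∀ i, HasCompactSupport (fun y => Y y i) := fun i =>
    hYs.comp_left (g := fun v : Ev n => v i) rfl
  have hYd : ∀ i (v : Ev n), HasCompactSupport (fun x => fderiv ℝ (fun y => Y y i) x v) := by
    intro i v
    exact ((hYis i).fderiv ℝ).comp_left (g := fun L : Ev n →L[ℝ] ℝ => L v) rfl
  have hu' : ∀ v : Ev n, Continuous (fun x => fderiv ℝ u x v) := fun v =>
    (hu.continuous_fderiv (by norm_num)).clm_apply continuous_const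
  have hYc' : ∀ i (v : Ev n), Continuous (fun x => fderiv ℝ (fun y => Y y i) x v) := fun i v =>
    ((hYi i).continuous_fderiv (by norm_num)).clm_apply continuous_const
  have i1 : ∀ i (v : Ev n), Integrable (fun x => fderiv ℝ u x v * Y x i) := fun i v =>
    ((hu' v).mul (hYi i).continuous).integrable_of_hasCompactSupport (hYis i).mul_left
  have i2 : ∀ i (v : Ev n), Integrable (fun x => u x * fderiv ℝ (fun y => Y y i) x v) := fun i v =>
    (hu.continuous.mul (hYc' i v)).integrable_of_hasCompactSupport (hYd i v).mul_left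
  have i3 : ∀ i, Integrable (fun x => u x * Y x i) := fun i =>
    (hu.continuous.mul (hYi i).continuous).integrable_of_hasCompactSupport (hYis i).mul_left
  have h1 : ∀ i, ∫ x, u x * fderiv ℝ (fun y => Y y i) x (EuclideanSpace.single i 1) =
      -∫ x, fderiv ℝ u x (EuclideanSpace.single i 1) * Y x i := fun i =>
    integral_mul_fderiv_eq_neg_fderiv_mul_of_integrable (i1 i _) (i2 i _) (i3 i)
      (fun x _ => hu.differentiable (by norm_num) x)
      (fun x _ => (hYi i).differentiable (by norm_num) x)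
  have e1 : ∀ x, u x * ∑ i, fderiv ℝ Y x (EuclideanSpace.single i 1) i =
      ∑ i, u x * fderiv ℝ (fun y => Y y i) x (EuclideanSpace.single i 1) := by
    intro x
    rw [Finset.mul_sum]
    exact Finset.sum_congr rfl fun i _ => by rw [Field_coord hY]
  have e2 : ∀ x, fderiv ℝ u x (Y x) =
      ∑ i, fderiv ℝ u x (EuclideanSpace.single i 1) * Y x i := by
    intro x
    have hsum : Y x = ∑ i, Y x i • (EuclideanSpace.single i (1 : ℝ) : Ev n) := by
      ext j
      simp [Finset.sum_apply, Pi.single_apply]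
    conv_lhs => rw [hsum]
    rw [map_sum]
    exact Finset.sum_congr rfl fun i _ => by rw [map_smul, smul_eq_mul, mul_comm]
  simp_rw [e1, e2]
  rw [integral_finsetSum _ fun i _ => i2 i _, integral_finsetSum _ fun i _ => i1 i _,
    ← Finset.sum_neg_distrib]
  exact Finset.sum_congr rfl fun i _ => h1 i

private theorem Field_equiv (hg : IsMetric g) {H : HData n} (hH : Represents H g) (x : Ev n) :
    ∃ e : Ev n ≃L[ℝ] (Ev n →L[ℝ] ℝ), (e : Ev n →L[ℝ] Ev n →L[ℝ] ℝ) = g x := by
  have hinj : Function.Injective (g x : Ev n →ₗ[ℝ] Ev n →L[ℝ] ℝ) := by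
    intro v w hvw
    by_contra hne
    have h1 := hg.pos x (v - w) (sub_ne_zero.2 hne)
    have h2 : g x (v - w) = 0 := by
      rw [map_sub, sub_eq_zero]
      exact hvw
    rw [h2] at h1
    simp at h1
  have hsurj : Function.Surjective (g x : Ev n →ₗ[ℝ] Ev n →L[ℝ] ℝ) := by
    intro ℓ
    refine ⟨H.L x ((InnerProductSpace.toDual ℝ (Ev n)).symm (ℓ.comp (H.L x))), ?_⟩
    ext w
    show g x (H.L x ((InnerProductSpace.toDual ℝ (Ev n)).symm (ℓ.comp (H.L x)))) w = ℓ w
    rw [hH, H.Li_L, InnerProductSpace.toDual_symm_apply]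
    show ℓ (H.L x (H.Li x w)) = ℓ w
    rw [H.L_Li]
  refine ⟨(LinearEquiv.ofBijective (g x : Ev n →ₗ[ℝ] Ev n →L[ℝ] ℝ)
    ⟨hinj, hsurj⟩).toContinuousLinearEquiv, ?_⟩
  ext v w
  rfl

/-- the metric gradient -/
private noncomputable def Field_G (g : Ev n → (Ev n →L[ℝ] Ev n →L[ℝ] ℝ)) (u : Ev n → ℝ)
    (x : Ev n) : Ev n :=
  (ContinuousLinearMap.inverse (g x)) (fderiv ℝ u x)

private theorem Field_G_eq (hg : IsMetric g) {H : HData n} (hH : Represents H g) (u : Ev n → ℝ)
    (x : Ev n) : Field_G g u x = H.L x (H.gr u x) := by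
  obtain ⟨e, he⟩ := Field_equiv hg hH x
  unfold Field_G
  rw [← he, ContinuousLinearMap.inverse_equiv]
  show e.symm (fderiv ℝ u x) = _
  rw [ContinuousLinearEquiv.symm_apply_eq]
  have h1 : ∀ v, e v = g x v := fun v => by rw [← he]; rfl
  rw [h1]
  ext w
  rw [hH, H.Li_L, H.inner_gr, H.L_Li]

private theorem Field_G_contDiff (hg : IsMetric g) {H : HData n} (hH : Represents H g)
    {u : Ev n → ℝ} (hu : ContDiff ℝ 2 u) : ContDiff ℝ 1 (Field_G g u) := by
  rw [contDiff_iff_contDiffAt]
  intro x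
  obtain ⟨e, he⟩ := Field_equiv hg hH x
  have h1 : ContDiffAt ℝ 1 (fun y => ContinuousLinearMap.inverse (g y)) x := by
    have h2 : ContDiffAt ℝ 1 ContinuousLinearMap.inverse (g x) := by
      rw [← he]
      exact contDiffAt_map_inverse e
    exact h2.comp x (hg.smooth.of_le (by exact_mod_cast le_top)).contDiffAt
  have h3 : ContDiffAt ℝ 1 (fun y => fderiv ℝ u y) x :=
    (hu.fderiv_right (m := 1) (by norm_num)).contDiffAt
  exact h1.clm_apply h3

/-- `Y = -sqdet g • grad u / sqrt(δ² + |grad u|²)` -/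
theorem exists_field (hg : IsMetric g) {H : HData n} (hH : Represents H g) (u : Ev n → ℝ)
    (hu : ContDiff ℝ 2 u) (hs : HasCompactSupport u) {ε : ℝ} (hε : 0 < ε) :
    ∃ Y : Ev n → Ev n, ContDiff ℝ 1 Y ∧ tsupport Y ⊆ tsupport u ∧
      (∀ x, ‖H.Li x (Y x)‖ ≤ H.dens x) ∧
      H.A u ≤ (∫ x, u x * ∑ i, fderiv ℝ Y x (EuclideanSpace.single i 1) i) + ε := by
  have hu1 : ContDiff ℝ 1 u := hu.of_le (by norm_num)
  set G := Field_G g u with hG
  have hGe : ∀ x, G x = H.L x (H.gr u x) := Field_G_eq hg hH u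
  have hGc : ContDiff ℝ 1 G := Field_G_contDiff hg hH hu
  set N : Ev n → ℝ := fun x => fderiv ℝ u x (G x) with hN
  have hNe : ∀ x, N x = ‖H.gr u x‖ ^ 2 := by
    intro x
    show fderiv ℝ u x (G x) = _
    rw [hGe, ← H.inner_gr, real_inner_self_eq_norm_sq]
  have hNc : ContDiff ℝ 1 N := (hu.fderiv_right (m := 1) (by norm_num)).clm_apply hGc
  have hfin := H.vol_isFiniteMeasureOnCompacts
  have hK : H.vol (tsupport u) ≠ ⊤ := (IsCompact.measure_lt_top hs).ne
  set m : ℝ := (H.vol (tsupport u)).toReal with hm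
  have hm0 : 0 ≤ m := ENNReal.toReal_nonneg
  set δ : ℝ := ε / (m + 1) with hδ
  have hδ0 : 0 < δ := by positivity
  have hδm : δ * m ≤ ε := by
    rw [hδ, div_mul_eq_mul_div, div_le_iff₀ (by positivity)]
    nlinarith
  have hpos : ∀ x, 0 < δ ^ 2 + N x := by
    intro x
    rw [hNe]
    positivity
  have hsq : ContDiff ℝ 1 (fun x => Real.sqrt (δ ^ 2 + N x)) :=
    (contDiff_const.add hNc).sqrt fun x => (hpos x).ne'
  have hsq0 : ∀ x, 0 < Real.sqrt (δ ^ 2 + N x) := fun x => Real.sqrt_pos.2 (hpos x)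
  have hdc : ContDiff ℝ 1 (sqdet g) := (sqdet_contDiff hg).of_le (by exact_mod_cast le_top)
  have hdpos := fun x => sqdet_pos hg x
  set Y : Ev n → Ev n := fun x => (-(sqdet g x / Real.sqrt (δ ^ 2 + N x))) • G x with hY
  have hYc : ContDiff ℝ 1 Y := ((hdc.div hsq fun x => (hsq0 x).ne').neg).smul hGc
  have hYs : tsupport Y ⊆ tsupport u := by
    refine closure_minimal ?_ (isClosed_tsupport u)
    intro x hx
    by_contra hxu
    apply hx
    show (-(sqdet g x / Real.sqrt (δ ^ 2 + N x))) • G x = 0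
    rw [hGe, H.gr_zero_of_not_mem hxu, map_zero, smul_zero]
  have hYcs : HasCompactSupport Y := hs.of_isClosed_subset (isClosed_tsupport Y) hYs
  refine ⟨Y, hYc, hYs, ?_, ?_⟩
  · intro x
    have e1 : H.Li x (Y x) = (-(sqdet g x / Real.sqrt (δ ^ 2 + N x))) • H.gr u x := by
      show H.Li x ((-(sqdet g x / Real.sqrt (δ ^ 2 + N x))) • G x) = _
      rw [map_smul, hGe, H.Li_L]
    rw [e1, norm_smul, norm_neg, Real.norm_eq_abs, abs_of_pos (div_pos (hdpos x) (hsq0 x)),
      dens_eq_sqdet hH, div_mul_eq_mul_div, div_le_iff₀ (hsq0 x)]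
    refine mul_le_mul_of_nonneg_left ?_ (hdpos x).le
    apply Real.le_sqrt_of_sq_le
    rw [hNe]
    nlinarith [sq_nonneg δ]
  · rw [ibp_div u Y hu1 hYc hYcs]
    -- the integral as an integral with respect to the Riemannian measure
    have e1 : -∫ x, fderiv ℝ u x (Y x) = ∫ x, N x / Real.sqrt (δ ^ 2 + N x) ∂H.vol := by
      have hdm : Measurable (fun x => ENNReal.ofReal (H.dens x)) :=
        H.dens_cont.measurable.ennreal_ofReal
      unfold HData.vol
      rw [integral_withDensity_eq_integral_toReal_smul hdm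
        (Eventually.of_forall fun x => ENNReal.ofReal_lt_top), ← integral_neg]
      refine integral_congr_ae (Eventually.of_forall fun x => ?_)
      show -(fderiv ℝ u x ((-(sqdet g x / Real.sqrt (δ ^ 2 + N x))) • G x)) =
        (ENNReal.ofReal (H.dens x)).toReal • (N x / Real.sqrt (δ ^ 2 + N x))
      rw [ENNReal.toReal_ofReal (H.dens_pos x).le, dens_eq_sqdet hH, map_smul, smul_eq_mul,
        smul_eq_mul]
      show -(-(sqdet g x / Real.sqrt (δ ^ 2 + N x)) * N x) = _
      ring
    rw [e1]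
    have hNs : HasCompactSupport N := by
      refine HasCompactSupport.intro hs fun x hx => ?_
      rw [hNe, H.gr_zero_of_not_mem hx, norm_zero]
      norm_num
    have i1 : Integrable (fun x => N x / Real.sqrt (δ ^ 2 + N x)) H.vol := by
      refine H.integrable_of_continuous
        (hNc.continuous.div hsq.continuous fun x => (hsq0 x).ne') ?_
      refine HasCompactSupport.intro hs fun x hx => ?_
      rw [hNe, H.gr_zero_of_not_mem hx, norm_zero]
      norm_num
    have i2 : Integrable ((tsupport u).indicator (fun _ => δ)) H.vol :=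
      (integrable_indicator_iff (isClosed_tsupport u).measurableSet).2 (integrableOn_const hK)
    have e2 : ∫ x, (tsupport u).indicator (fun _ => δ) x ∂H.vol = δ * m := by
      rw [integral_indicator (isClosed_tsupport u).measurableSet, setIntegral_const, smul_eq_mul,
        mul_comm]
      rfl
    have i0 : Integrable (fun x => ‖H.gr u x‖) H.vol :=
      H.integrable_of_continuous (H.gr_cont hu1).norm (H.gr_hasCompactSupport hs).norm
    have key : H.A u ≤ ∫ x, (N x / Real.sqrt (δ ^ 2 + N x) +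
        (tsupport u).indicator (fun _ => δ) x) ∂H.vol := by
      unfold HData.A
      refine integral_mono i0 (i1.add i2) fun x => ?_
      show ‖H.gr u x‖ ≤ N x / Real.sqrt (δ ^ 2 + N x) + (tsupport u).indicator (fun _ => δ) x
      by_cases hx : x ∈ tsupport u
      · rw [indicator_of_mem hx, hNe]
        set a := ‖H.gr u x‖ with ha
        have ha0 : 0 ≤ a := norm_nonneg _
        have hr : 0 < Real.sqrt (δ ^ 2 + a ^ 2) := by
          have := hsq0 x
          rwa [hNe] at this
        have hr2 : Real.sqrt (δ ^ 2 + a ^ 2) ^ 2 = δ ^ 2 + a ^ 2 := Real.sq_sqrt (by positivity)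
        set r := Real.sqrt (δ ^ 2 + a ^ 2) with hrdef
        have hra : a ≤ r := by
          apply Real.le_sqrt_of_sq_le
          nlinarith [sq_nonneg δ]
        have hrδ : δ ≤ r := by
          apply Real.le_sqrt_of_sq_le
          nlinarith [sq_nonneg a]
        rw [← sub_le_iff_le_add, le_div_iff₀ hr]
        nlinarith
      · rw [indicator_of_notMem hx, hNe, H.gr_zero_of_not_mem hx, norm_zero]
        norm_num
    rw [integral_add i1 i2, e2] at key
    linarith

end Vale.Agent.Lib.P219
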