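import Mathlib.Analysis.Calculus.BumpFunction.Convolution
import Vale.Agent.Lib.P219.Mo.Rep

/-! # P219 Mollification: convolution with a bump function -/

namespace Vale.Agent.Lib.P219

open MeasureTheory Set Filter Topology
open scoped ENNReal ContDiff

variable {n : ℕ}

/-- mollification of a bounded measurable set -/
noncomputable def moll (φ : ContDiffBump (0 : Ev n)) (Ω : Set (Ev n)) (x : Ev n) : ℝ :=
  ∫ y in Ω, φ.normed volume (x - y)

private theorem moll_eq_conv (φ : ContDiffBump (0 : Ev n)) {Ω : Set (Ev n)}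
    (hm : MeasurableSet Ω) :
    moll φ Ω = MeasureTheory.convolution (φ.normed volume) (Ω.indicator (1 : Ev n → ℝ))
      (ContinuousLinearMap.lsmul ℝ ℝ) volume := by
  funext x
  rw [convolution_lsmul_swap]
  unfold moll
  rw [← integral_indicator hm]
  refine integral_congr_ae (Eventually.of_forall fun y => ?_)
  by_cases hy : y ∈ Ω
  · simp [hy]
  · simp [hy]

private theorem ind_locInt {Ω : Set (Ev n)}
    (hΩ : Bornology.IsBounded Ω) (hm : MeasurableSet Ω) :
    Integrable (Ω.indicator (1 : Ev n → ℝ)) volume := by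
  rw [integrable_indicator_iff hm]
  exact integrableOn_const (hs := hΩ.measure_lt_top.ne)

theorem moll_contDiff (φ : ContDiffBump (0 : Ev n)) {Ω : Set (Ev n)}
    (hΩ : Bornology.IsBounded Ω) (hm : MeasurableSet Ω) : ContDiff ℝ ∞ (moll φ Ω) := by
  rw [moll_eq_conv φ hm]
  exact φ.hasCompactSupport_normed.contDiff_convolution_left _ φ.contDiff_normed
    (ind_locInt hΩ hm).locallyIntegrable

private theorem normed_sub_integral (φ : ContDiffBump (0 : Ev n)) (x : Ev n) :
    ∫ y, φ.normed volume (x - y) = 1 := by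
  rw [integral_sub_left_eq_self (fun y => φ.normed volume y) volume x]
  exact φ.integral_normed

private theorem normed_sub_integrable (φ : ContDiffBump (0 : Ev n)) (x : Ev n) :
    Integrable (fun y => φ.normed volume (x - y)) volume := by
  exact φ.integrable_normed.comp_sub_left x

theorem moll_mem (φ : ContDiffBump (0 : Ev n)) {Ω : Set (Ev n)}
    (hΩ : Bornology.IsBounded Ω) (hm : MeasurableSet Ω) (x : Ev n) :
    0 ≤ moll φ Ω x ∧ moll φ Ω x ≤ 1 := by
  constructor
  · exact integral_nonneg (fun y => φ.nonneg_normed _)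
  · unfold moll
    calc ∫ y in Ω, φ.normed volume (x - y)
        ≤ ∫ y, φ.normed volume (x - y) :=
          setIntegral_le_integral (normed_sub_integrable φ x)
            (Eventually.of_forall fun y => φ.nonneg_normed _)
      _ = 1 := normed_sub_integral φ x

private theorem moll_eq_zero (φ : ContDiffBump (0 : Ev n)) {Ω : Set (Ev n)} {R r : ℝ}
    (hφ : φ.rOut ≤ r)
    (hΩ : Ω ⊆ Metric.closedBall 0 R) (hm : MeasurableSet Ω) {x : Ev n}
    (hx : x ∉ Metric.closedBall (0 : Ev n) (R + r)) : moll φ Ω x = 0 := by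
  unfold moll
  rw [setIntegral_congr_fun hm (g := fun _ => (0 : ℝ))]
  · simp
  · intro y hy
    have h1 := hΩ hy
    rw [Metric.mem_closedBall, dist_zero_right] at h1 hx
    push Not at hx
    have h2 : φ.rOut ≤ ‖x - y‖ := by
      have := norm_sub_norm_le x y
      linarith
    have h3 : (x - y) ∉ Function.support (φ.normed volume) := by
      rw [φ.support_normed_eq, Metric.mem_ball, dist_zero_right]
      linarith
    simpa [Function.mem_support] using h3

theorem moll_support (φ : ContDiffBump (0 : Ev n)) (hφ : φ.rOut ≤ 1) {Ω : Set (Ev n)} {R : ℝ}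
    (hΩ : Ω ⊆ Metric.closedBall 0 R) : tsupport (moll φ Ω) ⊆ Metric.closedBall 0 (R + 1) := by
  refine closure_minimal ?_ Metric.isClosed_closedBall
  intro x hx
  by_contra hne
  apply hx
  unfold moll
  rw [setIntegral_eq_zero_of_forall_eq_zero]
  intro y hy
  have h1 := hΩ hy
  rw [Metric.mem_closedBall, dist_zero_right] at h1 hne
  push Not at hne
  have h2 : φ.rOut ≤ ‖x - y‖ := by
    have := norm_sub_norm_le x y
    linarith
  have h3 : (x - y) ∉ Function.support (φ.normed volume) := by
    rw [φ.support_normed_eq, Metric.mem_ball, dist_zero_right]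
    linarith
  simpa [Function.mem_support] using h3

/-- convergence in `L¹` with respect to a measure with continuous density -/
theorem moll_tendsto {Ω : Set (Ev n)} (hΩ : Bornology.IsBounded Ω) (hm : MeasurableSet Ω)
    {ρ : Ev n → ℝ} (hρ : Continuous ρ) (hρ0 : ∀ x, 0 ≤ ρ x) {ε : ℝ} (hε : 0 < ε) {r : ℝ}
    (hr : 0 < r) :
    ∃ φ : ContDiffBump (0 : Ev n), φ.rOut ≤ r ∧
      ∫ x, |moll φ Ω x - Ω.indicator (1 : Ev n → ℝ) x| * ρ x ≤ ε := by
  obtain ⟨R, hR⟩ := hΩ.subset_closedBall (0 : Ev n)
  have hj : ∀ j : ℕ, 0 < r / ((j : ℝ) + 1) := fun j => by positivity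
  let φ : ℕ → ContDiffBump (0 : Ev n) := fun j =>
    ⟨r / ((j : ℝ) + 1) / 2, r / ((j : ℝ) + 1), half_pos (hj j), half_lt_self (hj j)⟩
  have hout : ∀ j, (φ j).rOut = r / ((j : ℝ) + 1) := fun j => rfl
  have hin : ∀ j, (φ j).rIn = r / ((j : ℝ) + 1) / 2 := fun j => rfl
  have hle : ∀ j, (φ j).rOut ≤ r := by
    intro j
    rw [hout]
    apply div_le_self hr.le
    have : (0 : ℝ) ≤ j := Nat.cast_nonneg j
    linarith
  have hlim : Tendsto (fun j => (φ j).rOut) atTop (𝓝 0) := by
    simp only [hout]
    have h := (tendsto_one_div_add_atTop_nhds_zero_nat (𝕜 := ℝ)).const_mul r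
    simpa [div_eq_mul_inv] using h
  have hae := ContDiffBump.ae_convolution_tendsto_right_of_locallyIntegrable
    (μ := (volume : Measure (Ev n))) (K := 2) hlim
    (Eventually.of_forall fun j => by rw [hout, hin]; linarith [hj j])
    (ind_locInt hΩ hm).locallyIntegrable
  set B : Set (Ev n) := Metric.closedBall 0 (R + r) with hB
  have hBc : IsCompact B := isCompact_closedBall _ _
  have hdom : Tendsto (fun j => ∫ x, |moll (φ j) Ω x - Ω.indicator (1 : Ev n → ℝ) x| * ρ x)
      atTop (𝓝 (∫ _x : Ev n, (0 : ℝ))) := by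
    apply tendsto_integral_of_dominated_convergence (B.indicator ρ)
    · intro j
      refine AEStronglyMeasurable.mul ?_ hρ.aestronglyMeasurable
      have h1 : AEStronglyMeasurable (moll (φ j) Ω) volume :=
        (moll_contDiff (φ j) hΩ hm).continuous.aestronglyMeasurable
      exact (h1.sub (ind_locInt hΩ hm).aestronglyMeasurable).norm
    · rw [integrable_indicator_iff hBc.measurableSet]
      exact hρ.continuousOn.integrableOn_compact hBc
    · intro j
      refine Eventually.of_forall fun x => ?_
      by_cases hx : x ∈ B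
      · rw [indicator_of_mem hx, Real.norm_eq_abs, abs_mul, abs_abs, abs_of_nonneg (hρ0 x)]
        have h1 : |moll (φ j) Ω x - Ω.indicator (1 : Ev n → ℝ) x| ≤ 1 := by
          have h2 := moll_mem (φ j) hΩ hm x
          by_cases hxΩ : x ∈ Ω
          · rw [indicator_of_mem hxΩ, Pi.one_apply, abs_le]
            constructor <;> linarith [h2.1, h2.2]
          · rw [indicator_of_notMem hxΩ, sub_zero, abs_le]
            constructor <;> linarith [h2.1, h2.2]
        calc _ ≤ 1 * ρ x := mul_le_mul_of_nonneg_right h1 (hρ0 x)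
          _ = ρ x := one_mul _
      · have h0 : moll (φ j) Ω x = 0 := moll_eq_zero (φ j) (hle j) hR hm hx
        have h1 : x ∉ Ω := by
          intro hxΩ
          apply hx
          have h2 := hR hxΩ
          rw [Metric.mem_closedBall] at h2 ⊢
          linarith
        rw [h0, indicator_of_notMem h1, indicator_of_notMem hx]
        simp
    · filter_upwards [hae] with x hx
      have h1 : Tendsto (fun j => moll (φ j) Ω x) atTop (𝓝 (Ω.indicator (1 : Ev n → ℝ) x)) := by
        refine hx.congr (fun j => ?_)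
        rw [moll_eq_conv (φ j) hm]
      have h2 : Tendsto (fun j => |moll (φ j) Ω x - Ω.indicator (1 : Ev n → ℝ) x| * ρ x) atTop
          (𝓝 (|Ω.indicator (1 : Ev n → ℝ) x - Ω.indicator (1 : Ev n → ℝ) x| * ρ x)) :=
        ((h1.sub_const _).abs).mul_const _
      simpa using h2
  rw [integral_zero] at hdom
  obtain ⟨j, hj'⟩ := (hdom.eventually (gt_mem_nhds hε)).exists
  exact ⟨φ j, hle j, hj'.le⟩

/-- the mollified field -/
noncomputable def mollF (φ : ContDiffBump (0 : Ev n)) (Y : Ev n → Ev n) (x : Ev n) : Ev n :=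
  ∫ y, φ.normed volume (y - x) • Y y

private theorem mollF_eq_conv (φ : ContDiffBump (0 : Ev n)) (Y : Ev n → Ev n) :
    mollF φ Y = MeasureTheory.convolution (φ.normed volume) Y
      (ContinuousLinearMap.lsmul ℝ ℝ) volume := by
  funext x
  rw [convolution_lsmul_swap]
  unfold mollF
  refine integral_congr_ae (Eventually.of_forall fun y => ?_)
  simp only
  rw [← φ.normed_neg (y - x), neg_sub]

theorem mollF_contDiff (φ : ContDiffBump (0 : Ev n)) {Y : Ev n → Ev n} (hY : ContDiff ℝ 1 Y)
    (hYs : HasCompactSupport Y) : ContDiff ℝ 1 (mollF φ Y) ∧ HasCompactSupport (mollF φ Y) := by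
  rw [mollF_eq_conv]
  refine ⟨?_, ?_⟩
  · exact hYs.contDiff_convolution_right (n := 1) _ φ.integrable_normed.locallyIntegrable hY
  · exact HasCompactSupport.convolution _ φ.hasCompactSupport_normed hYs

/-- the divergence functional -/
private noncomputable def mollDv (n : ℕ) : (Ev n →L[ℝ] Ev n) →L[ℝ] ℝ :=
  ∑ i : Fin n, (EuclideanSpace.proj (𝕜 := ℝ) i).comp
    (ContinuousLinearMap.apply ℝ (Ev n) (EuclideanSpace.single i (1 : ℝ)))

private theorem mollDv_apply (T : Ev n →L[ℝ] Ev n) :
    mollDv n T = ∑ i, T (EuclideanSpace.single i 1) i := by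
  simp [mollDv]

private theorem div_mollF (φ : ContDiffBump (0 : Ev n)) {Y : Ev n → Ev n} (hY : ContDiff ℝ 1 Y)
    (hYs : HasCompactSupport Y) (x : Ev n) :
    mollDv n (fderiv ℝ (mollF φ Y) x) = ∫ y, φ.normed volume (y - x) * mollDv n (fderiv ℝ Y y) := by
  have h1 := hYs.hasFDerivAt_convolution_right (ContinuousLinearMap.lsmul ℝ ℝ)
    (φ.integrable_normed (μ := (volume : Measure (Ev n)))).locallyIntegrable hY x
  rw [mollF_eq_conv, h1.fderiv, convolution_eq_swap]
  have hc : Continuous (fderiv ℝ Y) := hY.continuous_fderiv one_ne_zero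
  have hcs : HasCompactSupport (fderiv ℝ Y) := hYs.fderiv ℝ
  have hint : Integrable (fun t => ((ContinuousLinearMap.lsmul ℝ ℝ).precompR (Ev n)
      (φ.normed volume (x - t))) (fderiv ℝ Y t) : Ev n → (Ev n →L[ℝ] Ev n)) volume := by
    refine Continuous.integrable_of_hasCompactSupport ?_ ?_
    · have hφc : Continuous (fun t => φ.normed volume (x - t)) :=
        (φ.continuous_normed (μ := (volume : Measure (Ev n)))).comp (continuous_const.sub continuous_id)
      exact (((ContinuousLinearMap.lsmul ℝ ℝ).precompR (Ev n)).continuous.comp hφc).clm_apply hc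
    · refine HasCompactSupport.mono hcs ?_
      intro t ht
      rw [Function.mem_support] at ht ⊢
      intro h0
      apply ht
      rw [h0, map_zero]
  rw [← ContinuousLinearMap.integral_comp_comm _ hint]
  refine integral_congr_ae (Eventually.of_forall fun y => ?_)
  simp only
  have h2 : ((ContinuousLinearMap.lsmul ℝ ℝ).precompR (Ev n)
      (φ.normed volume (x - y))) (fderiv ℝ Y y) = φ.normed volume (x - y) • fderiv ℝ Y y := by
    ext v
    simp [ContinuousLinearMap.precompR_apply]
  rw [h2, map_smul, smul_eq_mul, ← φ.normed_neg (y - x), neg_sub]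

/-- duality -/
theorem moll_dual (φ : ContDiffBump (0 : Ev n)) {Ω : Set (Ev n)}
    (hΩ : Bornology.IsBounded Ω) (hm : MeasurableSet Ω) {Y : Ev n → Ev n} (hY : ContDiff ℝ 1 Y)
    (hYs : HasCompactSupport Y) :
    ∫ x, moll φ Ω x * ∑ i, fderiv ℝ Y x (EuclideanSpace.single i 1) i
      = ∫ x in Ω, ∑ i, fderiv ℝ (mollF φ Y) x (EuclideanSpace.single i 1) i := by
  simp_rw [← mollDv_apply]
  simp_rw [div_mollF φ hY hYs]
  set d : Ev n → ℝ := fun y => mollDv n (fderiv ℝ Y y) with hd
  have hdc : Continuous d := (mollDv n).continuous.comp (hY.continuous_fderiv one_ne_zero)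
  have hds : HasCompactSupport d := by
    refine HasCompactSupport.mono (hYs.fderiv ℝ) ?_
    intro t ht
    rw [Function.mem_support] at ht ⊢
    intro h0
    apply ht
    rw [hd]
    simp only
    rw [h0, map_zero]
  have hdi : Integrable d volume := hdc.integrable_of_hasCompactSupport hds
  -- the joint function
  have hφc : Continuous (φ.normed (volume : Measure (Ev n))) := φ.continuous_normed
  obtain ⟨C, hC⟩ : ∃ C : ℝ, ∀ z, ‖φ.normed (volume : Measure (Ev n)) z‖ ≤ C := by
    obtain ⟨C, hC⟩ := (φ.hasCompactSupport_normed (μ := (volume : Measure (Ev n)))).exists_bound_of_continuous hφc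
    exact ⟨C, hC⟩
  have hprod : Integrable (fun p : Ev n × Ev n =>
      (Ω.indicator (1 : Ev n → ℝ) p.1 * d p.2) * φ.normed volume (p.2 - p.1))
      ((volume : Measure (Ev n)).prod volume) := by
    refine Integrable.mul_bdd (c := C) ?_ ?_ (Eventually.of_forall fun p => hC _)
    · exact (ind_locInt hΩ hm).mul_prod hdi
    · exact (hφc.comp (continuous_snd.sub continuous_fst)).aestronglyMeasurable
  have hswap := integral_integral_swap (f := fun x y =>
      (Ω.indicator (1 : Ev n → ℝ) x * d y) * φ.normed volume (y - x)) hprod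
  have hL : ∫ x in Ω, ∫ y, φ.normed volume (y - x) * d y
      = ∫ x, ∫ y, (Ω.indicator (1 : Ev n → ℝ) x * d y) * φ.normed volume (y - x) := by
    rw [← integral_indicator hm]
    refine integral_congr_ae (Eventually.of_forall fun x => ?_)
    by_cases hx : x ∈ Ω
    · simp only [indicator_of_mem hx, Pi.one_apply, one_mul]
      refine integral_congr_ae (Eventually.of_forall fun y => ?_)
      exact mul_comm _ _
    · simp only [indicator_of_notMem hx, zero_mul, integral_zero]
  have hR : ∫ x, moll φ Ω x * d x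
      = ∫ y, ∫ x, (Ω.indicator (1 : Ev n → ℝ) x * d y) * φ.normed volume (y - x) := by
    refine integral_congr_ae (Eventually.of_forall fun y => ?_)
    simp only
    unfold moll
    rw [← integral_indicator hm, ← integral_mul_const]
    refine integral_congr_ae (Eventually.of_forall fun x => ?_)
    by_cases hx : x ∈ Ω
    · simp only [indicator_of_mem hx, Pi.one_apply, one_mul]
      exact mul_comm _ _
    · simp only [indicator_of_notMem hx, zero_mul]
  rw [hL, hR, hswap]

end Vale.Agent.Lib.P219
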